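import Mathlib

/-!
# P123, step (5): the boundary curve of `V† + γ V` lies in the closure of the numerical range

`V` an isometry (`V† V = 1`), `e` a unit vector with `V† e = 0`, `A = V† + γ V`.
For `|ζ| = 1` the vectors `y n = ∑_{k ≤ n} ζ^k V^k e` satisfy `‖y n‖² = n + 1` and
`⟪y n, A (y n)⟫ = n (ζ + γ conj ζ)`; hence every continuous function bounded by `M` on the
numerical range is bounded by `M` at the point `ζ + γ conj ζ`.
-/

namespace Vale.Agent.Lib.P123.H14

open ContinuousLinearMap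

variable {H : Type*} [NormedAddCommGroup H] [InnerProductSpace ℂ H] [CompleteSpace H]

/-- the finite sums `∑_{k ≤ n} ζ^k V^k e`, defined by recursion -/
noncomputable def ysum (V : H →L[ℂ] H) (e : H) (ζ : ℂ) : ℕ → H
  | 0 => e
  | n + 1 => e + ζ • V (ysum V e ζ n)

lemma inner_V_V (V : H →L[ℂ] H) (hV : adjoint V * V = 1) (a b : H) :
    inner ℂ (V a) (V b) = inner ℂ a b := by
  have h : adjoint V (V b) = b := by
    have := congrArg (fun T : H →L[ℂ] H => T b) hV
    simpa using this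
  rw [← adjoint_inner_right, h]

lemma inner_e_V (V : H →L[ℂ] H) (e : H) (hVe : adjoint V e = 0) (w : H) :
    inner ℂ e (V w) = 0 := by
  rw [← adjoint_inner_left, hVe, inner_zero_left]

lemma inner_V_e (V : H →L[ℂ] H) (e : H) (hVe : adjoint V e = 0) (w : H) :
    inner ℂ (V w) e = 0 := by
  rw [← adjoint_inner_right, hVe, inner_zero_right]

lemma inner_e_ysum (V : H →L[ℂ] H) (e : H) (he : ‖e‖ = 1) (hVe : adjoint V e = 0) (ζ : ℂ)
    (n : ℕ) : inner ℂ e (ysum V e ζ n) = 1 := by
  have hee : inner ℂ e e = 1 := by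
    rw [inner_self_eq_norm_sq_to_K, he]; simp
  cases n with
  | zero => simpa [ysum] using hee
  | succ n =>
    simp only [ysum, inner_add_right, inner_smul_right, inner_e_V V e hVe, hee]
    ring

lemma inner_ysum_e (V : H →L[ℂ] H) (e : H) (he : ‖e‖ = 1) (hVe : adjoint V e = 0) (ζ : ℂ)
    (n : ℕ) : inner ℂ (ysum V e ζ n) e = 1 := by
  have := inner_e_ysum V e he hVe ζ n
  rw [← inner_conj_symm, this]; simp

lemma norm_sq_ysum (V : H →L[ℂ] H) (hV : adjoint V * V = 1) (e : H) (he : ‖e‖ = 1)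
    (hVe : adjoint V e = 0) (ζ : ℂ) (hζ : ‖ζ‖ = 1) (n : ℕ) :
    inner ℂ (ysum V e ζ n) (ysum V e ζ n) = (n : ℂ) + 1 := by
  have hee : inner ℂ e e = 1 := by
    rw [inner_self_eq_norm_sq_to_K, he]; simp
  have hζ2 : (starRingEnd ℂ) ζ * ζ = 1 := by
    rw [mul_comm, Complex.mul_conj, Complex.normSq_eq_norm_sq, hζ]; simp
  induction n with
  | zero => simpa [ysum] using hee
  | succ n ih =>
    simp only [ysum, inner_add_right, inner_add_left, inner_smul_right, inner_smul_left,
      inner_e_V V e hVe, inner_V_e V e hVe, inner_V_V V hV, hee, ih]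
    push_cast
    linear_combination ((n : ℂ) + 1) * hζ2

lemma inner_ysum_A (V : H →L[ℂ] H) (hV : adjoint V * V = 1) (e : H) (he : ‖e‖ = 1)
    (hVe : adjoint V e = 0) (γ ζ : ℂ) (hζ : ‖ζ‖ = 1) (n : ℕ) :
    inner ℂ (ysum V e ζ n) ((adjoint V + γ • V) (ysum V e ζ n))
      = (n : ℂ) * (ζ + γ * (starRingEnd ℂ) ζ) := by
  have hζ2 : (starRingEnd ℂ) ζ * ζ = 1 := by
    rw [mul_comm, Complex.mul_conj, Complex.normSq_eq_norm_sq, hζ]; simp
  have hVV : ∀ b : H, adjoint V (V b) = b := by
    intro b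
    have := congrArg (fun T : H →L[ℂ] H => T b) hV
    simpa using this
  induction n with
  | zero =>
    simp only [ysum, _root_.add_apply, _root_.smul_apply, hVe,
      inner_add_right, inner_smul_right, inner_e_V V e hVe, inner_zero_right]
    simp
  | succ n ih =>
    have h1 := inner_e_ysum V e he hVe ζ n
    have h2 := inner_ysum_e V e he hVe ζ n
    simp only [_root_.add_apply, _root_.smul_apply, inner_add_right,
      inner_smul_right, adjoint_inner_right] at ih
    simp only [ysum, _root_.add_apply, _root_.smul_apply, map_add,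
      map_smul, hVe, hVV, inner_add_right, inner_add_left, inner_smul_right, inner_smul_left,
      inner_e_V V e hVe, inner_V_V V hV, h1, h2, zero_add]
    push_cast
    linear_combination ih + (inner ℂ (V (ysum V e ζ n)) (ysum V e ζ n)) * hζ2
      + γ * (inner ℂ (ysum V e ζ n) (V (ysum V e ζ n))) * hζ2

/-- Step (5): for an isometry `V` with a unit vector `e` in the kernel of `V†` (so `V` is not
unitary), `A = V† + γ V` and `|ζ| = 1`: a continuous function bounded by `M` on the numerical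
range `{⟪x, A x⟫ : ‖x‖ = 1}` (Mathlib inner product, linear in the second slot, i.e. the value
`<A x, x>` of the convention that is linear in the first slot) is bounded by `M` at the point
`ζ + γ conj ζ`. -/
theorem curve_bound (V : H →L[ℂ] H) (hV : adjoint V * V = 1) (e : H) (he : ‖e‖ = 1)
    (hVe : adjoint V e = 0) (γ ζ : ℂ) (hζ : ‖ζ‖ = 1) (f : ℂ → ℂ) (hf : Continuous f) (M : ℝ)
    (hM : ∀ x : H, ‖x‖ = 1 → ‖f (inner ℂ x ((adjoint V + γ • V) x))‖ ≤ M) :
    ‖f (ζ + γ * (starRingEnd ℂ) ζ)‖ ≤ M := by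
  set w : ℂ := ζ + γ * (starRingEnd ℂ) ζ with hw
  -- the normalised vectors
  have key : ∀ n : ℕ, ‖f (((n : ℝ) / ((n : ℝ) + 1) : ℝ) * w)‖ ≤ M := by
    intro n
    set y := ysum V e ζ n with hy
    have hn1 : (0 : ℝ) < (n : ℝ) + 1 := by positivity
    have hnorm : ‖y‖ ^ 2 = (n : ℝ) + 1 := by
      have h := norm_sq_ysum V hV e he hVe ζ hζ n
      rw [inner_self_eq_norm_sq_to_K] at h
      have h' : ((‖y‖ ^ 2 : ℝ) : ℂ) = (((n : ℝ) + 1 : ℝ) : ℂ) := by
        push_cast; simpa using h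
      exact_mod_cast h'
    have hypos : 0 < ‖y‖ := by
      by_contra hcon
      have : ‖y‖ = 0 := le_antisymm (not_lt.mp hcon) (norm_nonneg _)
      rw [this] at hnorm; norm_num at hnorm; linarith
    set x : H := ((‖y‖⁻¹ : ℝ) : ℂ) • y with hx
    have hxn : ‖x‖ = 1 := by
      rw [hx, norm_smul, Complex.norm_real, norm_inv, norm_norm, inv_mul_cancel₀ hypos.ne']
    have hval : inner ℂ x ((adjoint V + γ • V) x) = (((n : ℝ) / ((n : ℝ) + 1) : ℝ) : ℂ) * w := by
      rw [hx, map_smul, inner_smul_left, inner_smul_right, inner_ysum_A V hV e he hVe γ ζ hζ n]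
      rw [Complex.conj_ofReal]
      have h2 : ((‖y‖⁻¹ : ℝ) : ℂ) * ((‖y‖⁻¹ : ℝ) : ℂ) = (((1 : ℝ) / ((n : ℝ) + 1) : ℝ) : ℂ) := by
        rw [← Complex.ofReal_mul]
        congr 1
        rw [← hnorm]; field_simp
      rw [← mul_assoc, h2]
      push_cast
      field_simp
      rw [hw]
    have := hM x hxn
    rwa [hval] at this
  -- pass to the limit
  have hlim : Filter.Tendsto (fun n : ℕ => (((n : ℝ) / ((n : ℝ) + 1) : ℝ) : ℂ) * w)
      Filter.atTop (nhds w) := by
    have h1 : Filter.Tendsto (fun n : ℕ => ((n : ℝ) / ((n : ℝ) + 1) : ℝ)) Filter.atTop (nhds 1) :=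
      tendsto_natCast_div_add_atTop (1 : ℝ)
    have h2 : Filter.Tendsto (fun n : ℕ => (((n : ℝ) / ((n : ℝ) + 1) : ℝ) : ℂ)) Filter.atTop
        (nhds ((1 : ℝ) : ℂ)) := (Complex.continuous_ofReal.tendsto 1).comp h1
    have h3 := h2.mul_const w
    simpa using h3
  have hlim2 : Filter.Tendsto (fun n : ℕ => ‖f ((((n : ℝ) / ((n : ℝ) + 1) : ℝ) : ℂ) * w)‖)
      Filter.atTop (nhds ‖f w‖) :=
    ((continuous_norm.comp hf).tendsto w).comp hlim
  exact le_of_tendsto' hlim2 key

end Vale.Agent.Lib.P123.H14
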