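import Mathlib

/-!
# P123, step (2): the operator `D` with `D = γ (P + V D V†)` and `‖D‖ ≤ |γ|`

`V` an isometry on a complex Hilbert space (`V† V = 1`), `P = 1 - V V†`, `|γ| < 1`.
The map `X ↦ γ (P + V X V†)` is a `|γ|`-contraction of the bounded operators that maps the
closed ball of radius `|γ|` into itself; its fixed point `D` satisfies `V† D = γ D V†`.
-/

namespace Vale.Agent.Lib.P123.H14

open ContinuousLinearMap

variable {H : Type*} [NormedAddCommGroup H] [InnerProductSpace ℂ H] [CompleteSpace H]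

lemma adj_V_apply (V : H →L[ℂ] H) (hV : adjoint V * V = 1) (b : H) : adjoint V (V b) = b := by
  have := congrArg (fun T : H →L[ℂ] H => T b) hV
  simpa using this

lemma norm_V_apply (V : H →L[ℂ] H) (hV : adjoint V * V = 1) (w : H) : ‖V w‖ = ‖w‖ := by
  have h : inner ℂ (V w) (V w) = inner ℂ w w := by
    rw [← adjoint_inner_right, adj_V_apply V hV]
  have h2 : ‖V w‖ ^ 2 = ‖w‖ ^ 2 := by
    have h3 : ((‖V w‖ ^ 2 : ℝ) : ℂ) = ((‖w‖ ^ 2 : ℝ) : ℂ) := by
      rw [inner_self_eq_norm_sq_to_K, inner_self_eq_norm_sq_to_K] at h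
      push_cast; simpa using h
    exact_mod_cast h3
  exact (sq_eq_sq₀ (norm_nonneg _) (norm_nonneg _)).1 h2

/-- `V† (1 - V V†) = 0` -/
lemma adj_V_mul_P (V : H →L[ℂ] H) (hV : adjoint V * V = 1) :
    adjoint V * (1 - V * adjoint V) = 0 := by
  rw [mul_sub, mul_one, ← mul_assoc, hV, one_mul, sub_self]

lemma adj_V_P_apply (V : H →L[ℂ] H) (hV : adjoint V * V = 1) (x : H) :
    adjoint V ((1 - V * adjoint V) x) = 0 := by
  have := DFunLike.congr_fun (adj_V_mul_P V hV) x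
  simpa using this

/-- the decomposition `‖x‖² = ‖P x‖² + ‖V† x‖²` -/
lemma norm_sq_split (V : H →L[ℂ] H) (hV : adjoint V * V = 1) (x : H) :
    ‖x‖ ^ 2 = ‖(1 - V * adjoint V) x‖ ^ 2 + ‖adjoint V x‖ ^ 2 := by
  have horth : inner ℂ ((1 - V * adjoint V) x) (V (adjoint V x)) = 0 := by
    rw [← adjoint_inner_left, adj_V_P_apply V hV x, inner_zero_left]
  have hx : x = (1 - V * adjoint V) x + V (adjoint V x) := by
    simp
  have h := norm_add_sq_eq_norm_sq_add_norm_sq_of_inner_eq_zero _ _ horth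
  rw [← hx, norm_V_apply V hV] at h
  nlinarith [h]

/-- key bound: `‖P + V X V†‖ ≤ 1` when `‖X‖ ≤ 1` -/
lemma norm_P_add_le (V : H →L[ℂ] H) (hV : adjoint V * V = 1) (X : H →L[ℂ] H) (hX : ‖X‖ ≤ 1) :
    ‖(1 - V * adjoint V) + V * X * adjoint V‖ ≤ 1 := by
  refine ContinuousLinearMap.opNorm_le_bound _ zero_le_one (fun x => ?_)
  rw [one_mul]
  have horth : inner ℂ ((1 - V * adjoint V) x) (V (X (adjoint V x))) = 0 := by
    rw [← adjoint_inner_left, adj_V_P_apply V hV x, inner_zero_left]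
  have h := norm_add_sq_eq_norm_sq_add_norm_sq_of_inner_eq_zero _ _ horth
  rw [norm_V_apply V hV] at h
  have h2 := norm_sq_split V hV x
  have h3 : ‖X (adjoint V x)‖ ≤ ‖adjoint V x‖ := by
    calc ‖X (adjoint V x)‖ ≤ ‖X‖ * ‖adjoint V x‖ := X.le_opNorm _
      _ ≤ 1 * ‖adjoint V x‖ := by gcongr
      _ = ‖adjoint V x‖ := one_mul _
  have h4 : ((1 - V * adjoint V) + V * X * adjoint V) x
      = (1 - V * adjoint V) x + V (X (adjoint V x)) := by
    simp
  rw [h4]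
  have h5 : ‖(1 - V * adjoint V) x + V (X (adjoint V x))‖ ^ 2 ≤ ‖x‖ ^ 2 := by
    nlinarith [norm_nonneg (X (adjoint V x)), norm_nonneg (adjoint V x)]
  exact le_of_sq_le_sq h5 (norm_nonneg _)

/-- the affine map `X ↦ γ (P + V X V†)` -/
noncomputable def Tmap (V : H →L[ℂ] H) (γ : ℂ) (X : H →L[ℂ] H) : H →L[ℂ] H :=
  γ • ((1 - V * adjoint V) + V * X * adjoint V)

lemma norm_V_le (V : H →L[ℂ] H) (hV : adjoint V * V = 1) : ‖V‖ ≤ 1 := by
  refine ContinuousLinearMap.opNorm_le_bound _ zero_le_one (fun x => ?_)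
  rw [one_mul, norm_V_apply V hV]

lemma Tmap_sub (V : H →L[ℂ] H) (γ : ℂ) (X Y : H →L[ℂ] H) :
    Tmap V γ X - Tmap V γ Y = γ • (V * (X - Y) * adjoint V) := by
  unfold Tmap
  rw [← smul_sub]
  congr 1
  noncomm_ring

lemma Tmap_contracting (V : H →L[ℂ] H) (hV : adjoint V * V = 1) (γ : ℂ) (hγ : ‖γ‖ < 1) :
    ContractingWith ‖γ‖₊ (Tmap V γ) := by
  refine ⟨by exact_mod_cast hγ, LipschitzWith.of_dist_le_mul (fun X Y => ?_)⟩
  rw [dist_eq_norm, dist_eq_norm, Tmap_sub, norm_smul]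
  have hVn := norm_V_le V hV
  have hVa : ‖adjoint V‖ ≤ 1 := by
    have : ‖adjoint V‖ = ‖V‖ := LinearIsometryEquiv.norm_map _ _
    rw [this]; exact hVn
  have h1 : ‖V * (X - Y) * adjoint V‖ ≤ ‖X - Y‖ := by
    calc ‖V * (X - Y) * adjoint V‖ ≤ ‖V * (X - Y)‖ * ‖adjoint V‖ := norm_mul_le _ _
      _ ≤ (‖V‖ * ‖X - Y‖) * ‖adjoint V‖ := by gcongr; exact norm_mul_le _ _
      _ ≤ (1 * ‖X - Y‖) * 1 := by gcongr
      _ = ‖X - Y‖ := by ring
  rw [coe_nnnorm]
  gcongr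

/-- Step (2): existence of `D` with `‖D‖ ≤ |γ|`, `D = γ (P + V D V†)` and `V† D = γ D V†`. -/
theorem exists_D (V : H →L[ℂ] H) (hV : adjoint V * V = 1) (γ : ℂ) (hγ : ‖γ‖ < 1) :
    ∃ D : H →L[ℂ] H, ‖D‖ ≤ ‖γ‖ ∧ D = γ • ((1 - V * adjoint V) + V * D * adjoint V) ∧
      adjoint V * D = γ • (D * adjoint V) := by
  have hc := Tmap_contracting V hV γ hγ
  set D := ContractingWith.fixedPoint (Tmap V γ) hc with hD
  have hfix : Tmap V γ D = D := hc.fixedPoint_isFixedPt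
  -- iterates from 0 stay in the closed ball of radius ‖γ‖
  have hball : ∀ n : ℕ, ‖(Tmap V γ)^[n] 0‖ ≤ ‖γ‖ := by
    intro n
    induction n with
    | zero => simp
    | succ n ih =>
      rw [Function.iterate_succ_apply']
      unfold Tmap
      rw [norm_smul]
      have := norm_P_add_le V hV ((Tmap V γ)^[n] 0) (ih.trans hγ.le)
      calc ‖γ‖ * ‖(1 - V * adjoint V) + V * (Tmap V γ)^[n] 0 * adjoint V‖ ≤ ‖γ‖ * 1 := by gcongr
        _ = ‖γ‖ := mul_one _
  have hlim := hc.tendsto_iterate_fixedPoint (0 : H →L[ℂ] H)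
  have hnorm : ‖D‖ ≤ ‖γ‖ := by
    have h2 : Filter.Tendsto (fun n => ‖(Tmap V γ)^[n] 0‖) Filter.atTop (nhds ‖D‖) :=
      (continuous_norm.tendsto _).comp hlim
    exact le_of_tendsto' h2 hball
  have hDeq : D = γ • ((1 - V * adjoint V) + V * D * adjoint V) := hfix.symm
  refine ⟨D, hnorm, hDeq, ?_⟩
  have h3 : adjoint V * D = adjoint V * (γ • ((1 - V * adjoint V) + V * D * adjoint V)) :=
    congrArg (fun T => adjoint V * T) hDeq
  rw [h3, mul_smul_comm, mul_add, adj_V_mul_P V hV, zero_add, ← mul_assoc, ← mul_assoc, hV, one_mul]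

end Vale.Agent.Lib.P123.H14
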