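import Mathlib
import Vale.Agent.Lib.P123.helper14.Curve
import Vale.Agent.Lib.P123.helper14.FixD

/-!
# P123: Crouzeix's inequality with constant `1 + |γ|` for `A = V† + γ V`

`V` a non-unitary isometry on a complex Hilbert space, `|γ| < 1`, `A = V† + γ V`.
Then `‖p(A)‖ ≤ (1 + |γ|) sup_{W(A)} |p|` for every polynomial `p`.

Route: the unitary `U = [[V, P], [0, V†]]` (`P = 1 - V V†`) in the C⋆-algebra of `2 × 2`
matrices over the bounded operators, the normal element `N = U⋆ + γ U`, the functional calculus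
bound for `p(N)`, the row identity `[1, -D V†] N = A [1, -D V†]` and the boundary curve.
-/

namespace Vale.Agent.Lib.P123.H14

open ContinuousLinearMap Polynomial

/-- functional calculus bound: `‖p(U⋆ + γ U)‖ ≤ M` for a unitary `U` when `|p| ≤ M` on the curve
`{conj z + γ z : |z| = 1}` -/
theorem norm_aeval_unitary_le {B : Type*} [CStarAlgebra B] (U : B) (hU : U ∈ unitary B) (γ : ℂ)
    (p : ℂ[X]) (M : ℝ) (hM : ∀ z : ℂ, ‖z‖ = 1 → ‖p.eval (star z + γ * z)‖ ≤ M) :
    ‖aeval (star U + γ • U) p‖ ≤ M := by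
  have h1 : star U * U = 1 := (Unitary.mem_iff.mp hU).1
  have h2 : U * star U = 1 := (Unitary.mem_iff.mp hU).2
  have hn : IsStarNormal U := ⟨by rw [Commute, SemiconjBy, h1, h2]⟩
  have hM0 : 0 ≤ M := le_trans (norm_nonneg _) (hM 1 (by simp))
  have hN : star U + γ • U = cfc (fun z : ℂ => star z + γ * z) U := by
    rw [cfc_add (a := U) (fun z : ℂ => star z) (fun z : ℂ => γ * z), cfc_star_id (R := ℂ) (a := U),
      cfc_const_mul_id γ U]
  have hNn : IsStarNormal (star U + γ • U) := by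
    rw [hN]; infer_instance
  rw [← cfc_polynomial p (star U + γ • U) hNn]
  rw [hN, ← cfc_comp (fun z : ℂ => p.eval z) (fun z : ℂ => star z + γ * z) U]
  refine norm_cfc_le hM0 (fun x hx => ?_)
  have hx1 : ‖x‖ = 1 := by
    have := spectrum.subset_circle_of_unitary hU hx
    simpa using this
  exact hM x hx1

variable {H : Type*} [NormedAddCommGroup H] [InnerProductSpace ℂ H] [CompleteSpace H]

/-- the unitary dilation `[[V, P], [0, V†]]`, `P = 1 - V V†` -/
noncomputable def Umat (V : H →L[ℂ] H) : CStarMatrix (Fin 2) (Fin 2) (H →L[ℂ] H) :=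
  CStarMatrix.ofMatrix !![V, 1 - V * adjoint V; 0, adjoint V]

lemma P_mul_V (V : H →L[ℂ] H) (hV : adjoint V * V = 1) : (1 - V * adjoint V) * V = 0 := by
  rw [sub_mul, one_mul, mul_assoc, hV, mul_one, sub_self]

lemma P_mul_P (V : H →L[ℂ] H) (hV : adjoint V * V = 1) :
    (1 - V * adjoint V) * (1 - V * adjoint V) = 1 - V * adjoint V := by
  rw [mul_sub, mul_one, ← mul_assoc, P_mul_V V hV, zero_mul, sub_zero]

lemma star_P (V : H →L[ℂ] H) : star (1 - V * adjoint V) = 1 - V * adjoint V := by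
  rw [star_sub, star_one, star_mul, star_eq_adjoint, star_eq_adjoint, adjoint_adjoint]

lemma Umat_unitary (V : H →L[ℂ] H) (hV : adjoint V * V = 1) :
    Umat V ∈ unitary (CStarMatrix (Fin 2) (Fin 2) (H →L[ℂ] H)) := by
  have e00 : (Umat V) 0 0 = V := rfl
  have e01 : (Umat V) 0 1 = 1 - V * adjoint V := rfl
  have e10 : (Umat V) 1 0 = 0 := rfl
  have e11 : (Umat V) 1 1 = adjoint V := rfl
  have hVP := adj_V_mul_P V hV
  have hPV := P_mul_V V hV
  have hPP := P_mul_P V hV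
  have hsP := star_P V
  have hsV : star V = adjoint V := rfl
  have hsV' : star (adjoint V) = V := by rw [star_eq_adjoint, adjoint_adjoint]
  rw [Unitary.mem_iff]
  constructor
  · ext i j
    fin_cases i <;> fin_cases j <;>
      simp only [CStarMatrix.mul_apply, Fin.sum_univ_two, CStarMatrix.star_apply, e00, e01, e10,
        e11, Fin.zero_eta, Fin.mk_one, Fin.isValue, CStarMatrix.one_apply, hsV, hsV', hsP,
        star_zero, hV, hVP, hPV, hPP, mul_zero, zero_mul, add_zero] <;>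
      simp
  · ext i j
    fin_cases i <;> fin_cases j <;>
      simp only [CStarMatrix.mul_apply, Fin.sum_univ_two, CStarMatrix.star_apply, e00, e01, e10,
        e11, Fin.zero_eta, Fin.mk_one, Fin.isValue, CStarMatrix.one_apply, hsV, hsV', hsP,
        star_zero, hV, hVP, hPV, hPP, mul_zero, zero_mul, add_zero, zero_add] <;>
      simp

/-- the row invariant: `X₀₀ - E X₁₀ = T` and `X₀₁ - E X₁₁ = -(T E)` -/
def RowInv (E : H →L[ℂ] H) (X : CStarMatrix (Fin 2) (Fin 2) (H →L[ℂ] H)) (T : H →L[ℂ] H) : Prop :=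
  X 0 0 - E * X 1 0 = T ∧ X 0 1 - E * X 1 1 = -(T * E)

omit [CompleteSpace H] in
lemma rowInv_one (E : H →L[ℂ] H) : RowInv E 1 1 := by
  constructor
  · simp
  · simp

omit [CompleteSpace H] in
lemma rowInv_add (E : H →L[ℂ] H) {X Y : CStarMatrix (Fin 2) (Fin 2) (H →L[ℂ] H)}
    {S T : H →L[ℂ] H} (hX : RowInv E X S) (hY : RowInv E Y T) : RowInv E (X + Y) (S + T) := by
  obtain ⟨h1, h2⟩ := hX
  obtain ⟨h3, h4⟩ := hY
  constructor
  · rw [CStarMatrix.add_apply, CStarMatrix.add_apply, ← h1, ← h3]; noncomm_ring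
  · rw [CStarMatrix.add_apply, CStarMatrix.add_apply, add_mul, neg_add, ← h2, ← h4]; noncomm_ring

omit [CompleteSpace H] in
lemma rowInv_smul (E : H →L[ℂ] H) (c : ℂ) {X : CStarMatrix (Fin 2) (Fin 2) (H →L[ℂ] H)}
    {T : H →L[ℂ] H} (hX : RowInv E X T) : RowInv E (c • X) (c • T) := by
  obtain ⟨h1, h2⟩ := hX
  constructor
  · rw [CStarMatrix.smul_apply, CStarMatrix.smul_apply, ← h1, smul_sub, mul_smul_comm]
  · rw [CStarMatrix.smul_apply, CStarMatrix.smul_apply, smul_mul_assoc, ← smul_neg, ← h2, smul_sub,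
      mul_smul_comm]

omit [CompleteSpace H] in
lemma rowInv_mul (E A : H →L[ℂ] H) (N : CStarMatrix (Fin 2) (Fin 2) (H →L[ℂ] H))
    (hN0 : N 0 0 - E * N 1 0 = A) (hN1 : N 0 1 - E * N 1 1 = -(A * E))
    {X : CStarMatrix (Fin 2) (Fin 2) (H →L[ℂ] H)} {T : H →L[ℂ] H} (hX : RowInv E X T) :
    RowInv E (X * N) (T * A) := by
  obtain ⟨h1, h2⟩ := hX
  constructor
  · rw [CStarMatrix.mul_apply, CStarMatrix.mul_apply, Fin.sum_univ_two, Fin.sum_univ_two]
    have : X 0 0 * N 0 0 + X 0 1 * N 1 0 - E * (X 1 0 * N 0 0 + X 1 1 * N 1 0)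
        = (X 0 0 - E * X 1 0) * N 0 0 + (X 0 1 - E * X 1 1) * N 1 0 := by noncomm_ring
    rw [this, h1, h2, ← hN0]; noncomm_ring
  · rw [CStarMatrix.mul_apply, CStarMatrix.mul_apply, Fin.sum_univ_two, Fin.sum_univ_two]
    have : X 0 0 * N 0 1 + X 0 1 * N 1 1 - E * (X 1 0 * N 0 1 + X 1 1 * N 1 1)
        = (X 0 0 - E * X 1 0) * N 0 1 + (X 0 1 - E * X 1 1) * N 1 1 := by noncomm_ring
    rw [this, h1, h2]
    have h5 : T * N 0 1 + -(T * E) * N 1 1 = T * (N 0 1 - E * N 1 1) := by noncomm_ring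
    rw [h5, hN1]; noncomm_ring

omit [CompleteSpace H] in
lemma rowInv_pow (E A : H →L[ℂ] H) (N : CStarMatrix (Fin 2) (Fin 2) (H →L[ℂ] H))
    (hN0 : N 0 0 - E * N 1 0 = A) (hN1 : N 0 1 - E * N 1 1 = -(A * E)) (k : ℕ) :
    RowInv E (N ^ k) (A ^ k) := by
  induction k with
  | zero => simpa using rowInv_one E
  | succ k ih =>
    rw [pow_succ, pow_succ]
    exact rowInv_mul E A N hN0 hN1 ih

omit [CompleteSpace H] in
lemma rowInv_aeval (E A : H →L[ℂ] H) (N : CStarMatrix (Fin 2) (Fin 2) (H →L[ℂ] H))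
    (hN0 : N 0 0 - E * N 1 0 = A) (hN1 : N 0 1 - E * N 1 1 = -(A * E)) (p : ℂ[X]) :
    RowInv E (aeval N p) (aeval A p) := by
  induction p using Polynomial.induction_on' with
  | add p q hp hq =>
    rw [map_add, map_add]
    exact rowInv_add E hp hq
  | monomial n a =>
    rw [aeval_monomial, aeval_monomial, ← Algebra.smul_def, ← Algebra.smul_def]
    exact rowInv_smul E a (rowInv_pow E A N hN0 hN1 n)

/-- Crouzeix's inequality with the constant `1 + |γ|` for `A = V† + γ V`, `V` a non-unitary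
isometry, `|γ| < 1`: if `|p| ≤ M` on the numerical range `{⟪x, A x⟫ : ‖x‖ = 1}` then
`‖p(A)‖ ≤ (1 + |γ|) M`. -/
theorem crouzeix_isometry (V : H →L[ℂ] H) (hV : adjoint V * V = 1) (hVn : V * adjoint V ≠ 1)
    (γ : ℂ) (hγ : ‖γ‖ < 1) (p : ℂ[X]) (M : ℝ)
    (hM : ∀ x : H, ‖x‖ = 1 → ‖p.eval (inner ℂ x ((adjoint V + γ • V) x))‖ ≤ M) :
    ‖aeval (adjoint V + γ • V) p‖ ≤ (1 + ‖γ‖) * M := by
  -- a unit vector in the kernel of `V†`
  obtain ⟨e, he, hVe⟩ : ∃ e : H, ‖e‖ = 1 ∧ adjoint V e = 0 := by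
    have hP : (1 - V * adjoint V) ≠ 0 := by
      intro h
      exact hVn (sub_eq_zero.mp h).symm
    obtain ⟨x, hx⟩ : ∃ x : H, (1 - V * adjoint V) x ≠ 0 := by
      by_contra hcon
      push Not at hcon
      exact hP (ContinuousLinearMap.ext (fun x => by simpa using hcon x))
    refine ⟨((‖(1 - V * adjoint V) x‖⁻¹ : ℝ) : ℂ) • (1 - V * adjoint V) x, ?_, ?_⟩
    · rw [norm_smul, Complex.norm_real, norm_inv, norm_norm,
        inv_mul_cancel₀ (norm_ne_zero_iff.mpr hx)]
    · rw [map_smul, adj_V_P_apply V hV x, smul_zero]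
  -- the bound on the curve
  have hcurve : ∀ z : ℂ, ‖z‖ = 1 → ‖p.eval (star z + γ * z)‖ ≤ M := by
    intro z hz
    have h := curve_bound V hV e he hVe γ (star z) (by simpa using hz) (fun w => p.eval w)
      p.continuous M hM
    simpa using h
  have hM0 : 0 ≤ M := le_trans (norm_nonneg _) (hcurve 1 (by simp))
  -- the dilation
  obtain ⟨D, hDn, hDeq, hDV⟩ := exists_D V hV γ hγ
  set N : CStarMatrix (Fin 2) (Fin 2) (H →L[ℂ] H) := star (Umat V) + γ • Umat V with hNdef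
  have hNnorm : ‖aeval N p‖ ≤ M := norm_aeval_unitary_le (Umat V) (Umat_unitary V hV) γ p M hcurve
  set E : H →L[ℂ] H := D * adjoint V with hE
  have hsV' : star (adjoint V) = V := by rw [star_eq_adjoint, adjoint_adjoint]
  have e00 : N 0 0 = adjoint V + γ • V := by
    rw [hNdef, CStarMatrix.add_apply, CStarMatrix.smul_apply, CStarMatrix.star_apply]; rfl
  have e01 : N 0 1 = γ • (1 - V * adjoint V) := by
    rw [hNdef, CStarMatrix.add_apply, CStarMatrix.smul_apply, CStarMatrix.star_apply]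
    show star (0 : H →L[ℂ] H) + γ • (1 - V * adjoint V) = _
    rw [star_zero, zero_add]
  have e10 : N 1 0 = 1 - V * adjoint V := by
    rw [hNdef, CStarMatrix.add_apply, CStarMatrix.smul_apply, CStarMatrix.star_apply]
    show star (1 - V * adjoint V) + γ • (0 : H →L[ℂ] H) = _
    rw [star_P, smul_zero, add_zero]
  have e11 : N 1 1 = V + γ • adjoint V := by
    rw [hNdef, CStarMatrix.add_apply, CStarMatrix.smul_apply, CStarMatrix.star_apply]
    show star (adjoint V) + γ • adjoint V = _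
    rw [hsV']
  have hVP := adj_V_mul_P V hV
  have hN0 : N 0 0 - E * N 1 0 = adjoint V + γ • V := by
    rw [e00, e10, hE, mul_assoc, hVP, mul_zero, sub_zero]
  have hN1 : N 0 1 - E * N 1 1 = -((adjoint V + γ • V) * E) := by
    rw [e01, e11, hE]
    have h1 : (adjoint V + γ • V) * (D * adjoint V)
        = γ • (D * adjoint V * adjoint V) + γ • (V * D * adjoint V) := by
      rw [add_mul, ← mul_assoc, hDV, smul_mul_assoc, smul_mul_assoc, ← mul_assoc]
    have h2 : D * adjoint V * (V + γ • adjoint V) = D + γ • (D * adjoint V * adjoint V) := by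
      rw [mul_add, mul_assoc, hV, mul_one, mul_smul_comm]
    rw [h1, h2]
    have h3 : γ • (1 - V * adjoint V) - D = -(γ • (V * D * adjoint V)) := by
      conv_lhs => rw [hDeq]
      rw [smul_add, smul_sub]
      abel
    calc γ • (1 - V * adjoint V) - (D + γ • (D * adjoint V * adjoint V))
        = (γ • (1 - V * adjoint V) - D) - γ • (D * adjoint V * adjoint V) := by abel
      _ = -(γ • (D * adjoint V * adjoint V) + γ • (V * D * adjoint V)) := by rw [h3]; abel
  obtain ⟨hrow, -⟩ := rowInv_aeval E (adjoint V + γ • V) N hN0 hN1 p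
  have hEn : ‖E‖ ≤ ‖γ‖ := by
    have hVa : ‖adjoint V‖ ≤ 1 := by
      have : ‖adjoint V‖ = ‖V‖ := LinearIsometryEquiv.norm_map _ _
      rw [this]; exact norm_V_le V hV
    calc ‖E‖ ≤ ‖D‖ * ‖adjoint V‖ := norm_mul_le _ _
      _ ≤ ‖γ‖ * 1 := by gcongr
      _ = ‖γ‖ := mul_one _
  have h00 : ‖(aeval N p) 0 0‖ ≤ ‖aeval N p‖ := CStarMatrix.norm_entry_le_norm
  have h10 : ‖(aeval N p) 1 0‖ ≤ ‖aeval N p‖ := CStarMatrix.norm_entry_le_norm
  rw [← hrow]
  calc ‖(aeval N p) 0 0 - E * (aeval N p) 1 0‖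
      ≤ ‖(aeval N p) 0 0‖ + ‖E * (aeval N p) 1 0‖ := norm_sub_le _ _
    _ ≤ ‖(aeval N p) 0 0‖ + ‖E‖ * ‖(aeval N p) 1 0‖ := by gcongr; exact norm_mul_le _ _
    _ ≤ M + ‖γ‖ * M := by
        have hA := h00.trans hNnorm
        have hB := h10.trans hNnorm
        have : ‖E‖ * ‖(aeval N p) 1 0‖ ≤ ‖γ‖ * M :=
          mul_le_mul hEn hB (norm_nonneg _) (norm_nonneg _)
        linarith
    _ = (1 + ‖γ‖) * M := by ring

end Vale.Agent.Lib.P123.H14
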